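import Crest.Agent.X212.Box46.Lev
import Crest.Agent.X212.Hel40.Bas
import Crest.Agent.X212.Orx52.Sw
import Crest.Agent.X212.Sym24.NF
import Crest.Agent.X212.Cyl58.Int
import Crest.Agent.X212.Sep15.Gl

/-!
# X212/Box46/Box (helper46): the box of a circle map, the mapping torus
-/

set_option autoImplicit false
set_option linter.unusedSectionVars false
set_option linter.style.haveILetI false

open Set Filter Topology Function
open scoped ContDiff Manifold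
open Crest.Agent.R208.F Crest.Agent.X212.Dr59 Crest.Agent.X212.Int54 Crest.Agent.X212.Cyl58
open Crest.Agent.X212.Flo26 (SmV fl)
open Crest.Agent.X212.Sep15 (EE IR CM Box slab px Rg)
open Crest.Agent.X212.Bb31 (Fm Cy Df)

noncomputable section

namespace Crest.Agent.X212.Box46

open Hel40

/-- the point `-1` of the circle -/
def npi : Circle := Circle.exp Real.pi

theorem coe_npi : (npi : ℂ) = -1 := by simp [npi]

theorem npi_npi (θ : Circle) : npi * (npi * θ) = θ := Circle.ext (by simp [coe_npi])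

theorem npi_mul_eq {θ : Circle} : npi * θ = 1 ↔ (θ : ℂ) = -1 := by
  rw [Circle.ext_iff, Circle.coe_mul, coe_npi, Circle.coe_one, neg_one_mul, neg_eq_iff_eq_neg]

theorem der_cayA (s : ℝ) :
    HasDerivAt (fun s : ℝ => Real.pi + 2 * Real.arctan s) (2 * (1 / (1 + s ^ 2))) s :=
  ((Real.hasDerivAt_arctan s).const_mul 2).const_add _

theorem oe_cay : IsOE 𝓘(ℝ, ℝ) (𝓡 1) cay := ⟨cay_inj, fun s => ld_comp (Glue52.ld_circleExp _)
  ((Up.of_hasDerivAt (fun _ _ => contDiff_cayA.contDiffAt) (fun s _ => der_cayA s)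
    fun _ _ => by positivity).ld isOpen_univ (mem_univ s))⟩

theorem exists_cay {θ : Circle} (h : θ ≠ 1) : ∃ s, cay s = θ := by
  have h1 := Circle.exp_arg (npi * θ)
  have h2 : Complex.arg (npi * θ : Circle) < Real.pi := (Complex.arg_le_pi _).lt_of_ne fun e => h (by
    rw [e] at h1
    exact (mul_eq_left.1 h1.symm :))
  refine ⟨Real.tan (Complex.arg (npi * θ : Circle) / 2), ?_⟩
  rw [cay, Real.arctan_tan (by linarith [Complex.neg_pi_lt_arg (npi * θ : Circle)]) (by linarith),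
    Circle.exp_add, mul_div_cancel₀ _ two_ne_zero, h1]
  exact npi_npi θ

theorem cay_inv {s : ℝ} (h : s ≠ 0) : cay (-s⁻¹) = npi * cay s := by
  rw [cay, cay, npi, ← Circle.exp_add, Real.arctan_neg, Circle.exp_eq_exp]
  rcases h.lt_or_gt with h | h
  · exact ⟨0, by rw [Real.arctan_inv_of_neg h]; push_cast; ring⟩
  · exact ⟨-1, by rw [Real.arctan_inv_of_pos h]; push_cast; ring⟩

/-- the orientation of the fibre of a box -/
theorem exists_oR {Y : CM 3} {R : CM 2} {o : Fm 3 Y} (ho : Ori (𝓡 3) o) {b : R × ℝ → Y}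
    (hb : Box b) : ∃ oR : Fm 2 R, Ori (𝓡 2) oR ∧ Cy oR o b := by
  have h1 := Orx52.ori_pm ho hb.loc
  have h2 : ∀ x, tp (EE 2 × ℝ) (pm (IR 2) (𝓡 3) b o (x, 0)) =
      Sym24.kap (EE 2) * tp (EE 2) (Sym24.nq (pm (IR 2) (𝓡 3) b o) x) := fun x => Sym24.tp_eq _
  have h3 : Ori (𝓡 2) (Sym24.nq (pm (IR 2) (𝓡 3) b o)) :=
    ⟨fun x => Sym24.smAt_nq (h1.sm _), fun x => right_ne_zero_of_mul (h2 x ▸ h1.ne _)⟩
  refine ⟨_, h3, fun p _ => Orx52.same_of_pt (s := {p.1} ×ˢ univ) (Orx52.oriOn h1 _)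
    (Orx52.oriOn (Orx52.ori_cy h3) _) (isPreconnected_singleton.prod isPreconnected_univ)
    (x := (p.1, 0)) ⟨rfl, trivial⟩ ?_ p ⟨rfl, trivial⟩⟩
  rw [Orx52.tp_cy, ← h2]
  exact mul_self_pos.2 (h1.ne _)

theorem box : BoxStmt := by
  intro Y o v Φ ho hv hΦ hp
  let U : TopologicalSpace.Opens Y := ⟨{y | Φ y ≠ 1}, isOpen_ne.preimage hΦ.continuous⟩
  have hι : IsOE (𝓡 3) (𝓡 3) (Subtype.val : U → Y) := isOE_val U
  choose h hh using fun y : U => exists_cay y.2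
  have sh : ContMDiff (𝓡 3) 𝓘(ℝ, ℝ) ∞ h :=
    oe_cay.contMDiff_left ((hΦ.comp hι.contMDiff).congr hh)
  have inv : ∀ y : U, (mfderiv (𝓡 3) (𝓡 3) Subtype.val y).IsInvertible := fun y =>
    ⟨(hι.loc y).mfderivToContinuousLinearEquiv (by simp), rfl⟩
  let v' := VectorField.mpullback (𝓡 3) (𝓡 3) (Subtype.val : U → Y) v
  have sv' : SmV (𝓡 3) v' := ContMDiff.mpullback_vectorField hv hι.contMDiff inv (by simp)
  have ev : ∀ y : U, mf (𝓡 3) (𝓡 3) Subtype.val y (v' y) = vv v y := fun y =>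
    ((inv y).inverse_apply_eq.1 rfl).symm
  let d : U → ℝ := fun y => mf (𝓡 3) 𝓘(ℝ, ℝ) h y (v' y)
  have sd : ContMDiff (𝓡 3) 𝓘(ℝ, ℝ) ∞ d :=
    (contMDiff_snd_tangentBundle_modelSpace ℝ 𝓘(ℝ, ℝ)).comp (sv'.tangent sh)
  have pd : ∀ y, 0 < d y := fun y => by
    have h1 : rt Φ v y = d y * (2 * (1 / (1 + h y ^ 2))) := by
      have h2 := dl_comp (hΦ y.1) ((hι.contMDiff y).mdifferentiableAt (by simp)) (v' y)
      rw [ev, show Φ ∘ Subtype.val = fun y => Circle.exp (Real.pi + 2 * Real.arctan (h y)) from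
        funext fun y => (hh y).symm] at h2
      exact (h2.symm.trans (dl_exp ((contDiff_cayA.contMDiff.comp sh) y) _)).trans (congrArg (fun L : EE 3 →L[ℝ] ℝ => L (v' y))
        ((der_cayA (h y)).hasFDerivAt.hasMFDerivAt.comp y
          ((sh y).mdifferentiableAt (by simp)).hasMFDerivAt).mfderiv)
    exact (pos_iff_pos_of_mul_pos (h1 ▸ hp y y.2)).2 (by positivity)
  have sw := sv'.smul (sd.inv₀ fun y => (pd y).ne')
  obtain ⟨R, b, b1, b2, b3⟩ := exists_prod (n := 2) (by simp) sh sw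
    (fun y => (map_smul _ _ _).trans (inv_mul_cancel₀ (pd y).ne')) fun a b => by
      have : h ⁻¹' Icc a b = Subtype.val ⁻¹' (Φ ⁻¹' (cay '' Icc a b)) := by
        ext y
        rw [mem_preimage, mem_preimage, mem_preimage, ← hh, cay_inj.mem_set_image]
      rw [this]
      refine IsInducing.subtypeVal.isCompact_preimage'
        ((isCompact_Icc.image oe_cay.continuous).isClosed.preimage hΦ.continuous).isCompact ?_
      rintro y ⟨s, -, hs⟩
      exact ⟨⟨y, fun e => cay_ne s (hs.trans e)⟩, rfl⟩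
  have hb : Box (Subtype.val ∘ b) := hι.comp (IsOE.of_diffeo b)
  obtain ⟨oR, o1, o2⟩ := exists_oR ho hb
  refine ⟨R, oR, _, o1, hb, o2, ?_, fun p => by rw [← b1 p]; exact (hh _).symm, fun p =>
    ⟨(d (b p))⁻¹, inv_pos.2 (pd _), ?_⟩⟩
  · rw [range_comp, (EquivLike.surjective b).range_eq, image_univ, Subtype.range_coe]; rfl
  · have h1 := mf_line (hasDerivAt_id p.2) ((hb.contMDiff (p.1, p.2)).mdifferentiableAt (by simp))
    have h2 := (Flo26.hasMFDerivAt_comp_fl sw (b2 (p.2, b (p.1, 0))) (J := 𝓡 3) (f := Subtype.val)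
      ((hι.contMDiff _).mdifferentiableAt (by simp))).mfderiv
    have h3 : ∀ y : U, mf (𝓡 3) (𝓡 3) Subtype.val y ((d y)⁻¹ • v' y) = (d y)⁻¹ • vv v y := fun y =>
      (map_smul (mf (𝓡 3) (𝓡 3) Subtype.val y) _ _).trans (congrArg _ (ev _))
    rw [one_smul] at h1
    refine h1.symm.trans ((congrArg (fun γ => mf 𝓘(ℝ, ℝ) (𝓡 3) γ p.2 1)
      (funext fun s => congrArg Subtype.val (b3 p.1 s))).trans
      ((congrArg (fun L : ℝ →L[ℝ] EE 3 => L 1) h2).trans ((one_smul ℝ _).trans ((h3 _).trans ?_))))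
    rw [← b3]
    rfl

variable {Y : CM 3} {R R' : CM 2} {v : Vf Y}

/-- transition between two vertical boxes -/
theorem exists_trans {b : R × ℝ → Y} {b' : R' × ℝ → Y} (hb : Box b) (hb' : Box b') (hv : Vert v b)
    (hv' : Vert v b') {S : Set ℝ} (hS : IsOpen S) (hc : OrdConnected S) {s₀ : ℝ} (h0 : s₀ ∈ S)
    {σ : ℝ → ℝ} (h : ∀ x, ∀ s ∈ S, ∃ y, b' (x, s) = b (y, σ s)) :
    ∃ α : R' → R, ContMDiff (𝓡 2) (𝓡 2) ∞ α ∧ ∀ x, ∀ s ∈ S, b' (x, s) = b (α x, σ s) := by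
  choose α hα using fun x => h x s₀ h0
  refine ⟨α, contMDiff_fst.comp (hb.contMDiff_left (g := fun x => (α x, σ s₀))
    ((hb'.contMDiff.comp (contMDiff_id.prodMk contMDiff_const)).congr fun x => (hα x).symm)),
    fun x s hs => ?_⟩
  obtain ⟨y, hy⟩ := h x s hs
  rw [hy, show α x = y from foot hb hv (γ := fun r => b' (x, r)) hS (fun r hr => ?_)
    (hc.uIcc_subset h0 hs) (hα x) hy]
  obtain ⟨z, hz⟩ := h x r hr
  obtain ⟨f, -, hf⟩ := vert_vv hv' (x, r)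
  refine ⟨hb'.contMDiff.comp (contMDiff_const.prodMk contMDiff_id) r, ⟨_, hz.symm⟩, f, ?_⟩
  exact (mf_line (hasDerivAt_id r) ((hb'.contMDiff (x, r)).mdifferentiableAt (by simp))).trans
    ((one_smul ℝ _).trans hf)

/-- the boxes of `Φ` and of `-Φ` overlap along two slabs -/
theorem exists_half {o : Fm 3 Y} {Φ : Y → Circle} {oR : Fm 2 R} {oR' : Fm 2 R'} {b : R × ℝ → Y}
    {b' : R' × ℝ → Y} (B : Bx o v Φ oR b) (B' : Bx o v (fun y => npi * Φ y) oR' b') {S S' : Set ℝ}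
    (hS : IsOpen S) (hc : OrdConnected S) (hS' : IsOpen S') (hc' : OrdConnected S') {s₀ : ℝ}
    (h0 : s₀ ∈ S) (h0' : -s₀⁻¹ ∈ S') (n : 0 ∉ S) (n' : 0 ∉ S') :
    ∃ α : R' ≃ₘ^∞⟮𝓡 2, 𝓡 2⟯ R, ∀ x, ∀ s ∈ S, b' (x, s) = b (α x, -s⁻¹) := by
  have key : ∀ {R R' : CM 2} {Φ Φ' : Y → Circle} {oR : Fm 2 R} {oR' : Fm 2 R'} {b : R × ℝ → Y}
      {b' : R' × ℝ → Y}, Bx o v Φ oR b → Bx o v Φ' oR' b' → (∀ y, Φ y = npi * Φ' y) →
      ∀ x s, s ≠ 0 → ∃ y, b' (x, s) = b (y, -s⁻¹) := fun B B' e x s hs => by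
    have h1 := (e _).trans ((congrArg _ (B'.ang (x, s))).trans (cay_inv hs).symm)
    obtain ⟨p, hp⟩ := B.rg.ge fun h => cay_ne _ (h1.symm.trans h)
    exact ⟨p.1, hp.symm.trans (congrArg _ (Prod.ext rfl
      (cay_inj ((B.ang p).symm.trans (hp ▸ h1)))))⟩
  obtain ⟨α, a1, a2⟩ := exists_trans B.box B'.box B.vert B'.vert hS hc h0 fun x s hs =>
    key B B' (fun y => (npi_npi _).symm) x s fun e => n (e ▸ hs)
  obtain ⟨β, b1, b2⟩ := exists_trans B'.box B.box B'.vert B.vert hS' hc' h0' fun x s hs =>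
    key B' B (fun y => rfl) x s fun e => n' (e ▸ hs)
  have e : -(-s₀⁻¹)⁻¹ = s₀ := by simp
  refine ⟨Glue52.diffeoOf α β a1 b1 (fun x => ?_) fun x => ?_, a2⟩
  · have := (a2 x _ h0).trans (b2 _ _ h0')
    exact (congrArg Prod.fst (B'.box.inj this)).symm
  · have := b2 x _ h0'
    rw [e, a2 _ _ h0] at this
    exact (congrArg Prod.fst (B.box.inj this)).symm

theorem up_inv : Up (fun s : ℝ => -s⁻¹) {0}ᶜ := Up.of_hasDerivAt
  (fun _ hs => (contDiffAt_id.inv hs).neg) (fun _ hs => (hasDerivAt_inv hs).neg)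
  fun s hs => by have : s ≠ 0 := hs; rw [neg_neg]; positivity

theorem base : BaseStmt := by
  intro Y R o v Φ oR b hB B hR
  have sΦ : SC fun y => npi * Φ y := contMDiff_const.mul hB.smΦ
  obtain ⟨R', oR', b', B'⟩ := box Y o v _ hB.ori hB.smv sΦ fun y _ => by
    have := dl_mul (I := 𝓡 3) (g := fun _ => npi) contMDiffAt_const (hB.smΦ y)
    rw [dl_const, zero_add] at this
    exact (hB.pos y id).trans_eq (LinearMap.congr_fun this _).symm
  obtain ⟨α, hα⟩ := exists_half B B' (isOpen_Ioi (a := 0)) ordConnected_Ioi (isOpen_Iio (a := 0))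
    ordConnected_Iio (s₀ := 1) (by simp) (by simp) (by simp) (by simp)
  obtain ⟨β, hβ⟩ := exists_half B B' (isOpen_Iio (a := 0)) ordConnected_Iio (isOpen_Ioi (a := 0))
    ordConnected_Ioi (s₀ := -1) (by simp) (by simp) (by simp) (by simp)
  obtain ⟨Y₀, ⟨f⟩⟩ := Sep15.exists_prod R
  obtain ⟨x₀, -⟩ := hR.nonempty
  haveI : Nonempty R := ⟨x₀⟩
  let g : Df R := α.symm.trans β
  have oid : IsOE (𝓡 2) (𝓡 2) (id : R → R) := ⟨injective_id, ld_id⟩
  have onp : IsOE (𝓡 1) (𝓡 1) (npi * ·) := IsOE.of_diffeo (Glue52.diffeoOf (npi * ·) (npi * ·)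
    (contMDiff_const.mul contMDiff_id) (contMDiff_const.mul contMDiff_id) npi_npi npi_npi)
  have h0 : Box (f ∘ Prod.map id cay) := (IsOE.of_diffeo f).comp (oid.prodMap oe_cay)
  have j0 : Box (f ∘ Prod.map id ((npi * ·) ∘ cay)) :=
    (IsOE.of_diffeo f).comp (oid.prodMap (onp.comp oe_cay))
  have j1 : Box (b' ∘ Prod.map α.symm id) :=
    B'.box.comp ((IsOE.of_diffeo α.symm).prodMap ⟨injective_id, ld_id⟩)
  have lo : ∀ x, ∀ s > 0, (b' ∘ Prod.map α.symm id) (x, s) = b (x, -s⁻¹) := fun x s hs =>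
    (hα _ s hs).trans (by rw [α.apply_symm_apply])
  have hi : ∀ x, ∀ s < 0, (b' ∘ Prod.map α.symm id) (x, s) = b (g x, -s⁻¹) := fun x s hs => hβ _ s hs
  have e0 : ∀ p : R × ℝ, p.2 ≠ 0 → (f ∘ Prod.map id cay) p =
      (f ∘ Prod.map id ((npi * ·) ∘ cay)) (p.1, -p.2⁻¹) := fun p hp =>
    congrArg f (Prod.ext rfl (by simp only [Prod.map, comp]; rw [cay_inv hp, npi_npi]))
  have c0 : npi * cay 0 = 1 := npi_mul_eq.2 (cay_eq_neg.2 rfl)
  have ee : ∀ s : ℝ, -(-s⁻¹)⁻¹ = s := fun s => by simp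
  have hg : Bb31.Pos oR g := by
    have oc := Orx52.ori_cy B.ori
    have ld : ∀ {k : R → R}, IsLocalDiffeomorph (𝓡 2) (𝓡 2) ∞ k → ∀ p : R × ℝ, p.2 ≠ 0 →
        IsLocalDiffeomorphAt (IR 2) (IR 2) ∞ (Prod.map k fun s : ℝ => -s⁻¹) p := fun hk p hp =>
      ld_prodMap (hk _) (up_inv.ld isOpen_compl_singleton hp)
    have cy : ∀ {k : R → R} {a : Fm 2 R}, IsLocalDiffeomorph (𝓡 2) (𝓡 2) ∞ k →
        Orx52.Pos (𝓡 2) (𝓡 2) k univ oR a → Orx52.Pos (IR 2) (IR 2) (Prod.map k fun s : ℝ => -s⁻¹)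
          (univ ×ˢ {0}ᶜ) (Orx52.cy oR) (Orx52.cy a) := fun hk h =>
      h.cy (fun y _ => hk y) (fun _ => up_inv.hasDerivAt) fun s hs => (up_inv s hs).2
    have pb : Orx52.Pos (IR 2) (𝓡 3) b univ (Orx52.cy oR) o := B.cy
    have p1 := (pb.comp ((cy ld_id (Orx52.pos_id.2 (Orx52.oriOn B.ori _).same)).mono
      (s' := univ ×ˢ Ioi 0) fun p hp => ⟨trivial, ne_of_gt hp.2⟩) (fun p _ => B.box.loc p)
      (fun p hp => ld ld_id p (ne_of_gt hp.2)) (mapsTo_univ _ _)).congr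
      (isOpen_univ.prod isOpen_Ioi) fun p hp => lo p.1 p.2 hp.2
    have p2 := Orx52.pos_of_pt (hR.isPreconnected.prod isPreconnected_univ) (Orx52.oriOn oc _)
      (Orx52.oriOn hB.ori univ) (fun p _ => j1.loc p) (mapsTo_univ _ _) (y := (x₀, 1))
      ⟨trivial, trivial⟩ (p1.mono (singleton_subset_iff.2 ⟨trivial, mem_Ioi.2 one_pos⟩))
    have p3 := ((p2.mono (s' := univ ×ˢ Iio 0) fun _ _ => ⟨trivial, trivial⟩).congr
      (f' := b ∘ Prod.map g fun s : ℝ => -s⁻¹) (isOpen_univ.prod isOpen_Iio)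
      fun p hp => (hi p.1 p.2 hp.2).symm).of_comp_left pb (fun p _ => B.box.loc p)
      (fun p hp => ld g.isLocalDiffeomorph p (ne_of_lt hp.2)) (mapsTo_univ _ _)
    refine (Orx52.pos_or hR.isPreconnected (Orx52.oriOn B.ori _) (Orx52.oriOn B.ori univ)
      (fun y _ => g.isLocalDiffeomorph y) (mapsTo_univ _ _)).resolve_right fun h => ?_
    have p4 := (cy g.isLocalDiffeomorph h).mono (s' := univ ×ˢ Iio 0)
      fun p hp => ⟨trivial, ne_of_lt hp.2⟩
    rw [show Orx52.cy (-oR) = -Orx52.cy oR from funext fun p => by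
      simp [Orx52.cy, Sym24.pu]] at p4
    exact (p3.not_neg p4).le (show (x₀, -1) ∈ _ from ⟨trivial, mem_Iio.2 neg_one_lt_zero⟩)
  refine ⟨Y₀, f, _, g, ⟨h0, B.box, j0.span j1, ?_, ?_, fun p hp => ?_, fun p hp => ?_⟩, hB.ori, B.ori,
    hR, B.cy, hg, hB.smΦ, fun _ => rfl, B.ang, fun x θ hθ => ?_⟩
  · rw [IsOE.span_source]
    ext y
    obtain ⟨⟨x, θ⟩, rfl⟩ := f.surjective y
    constructor
    · rintro ⟨p, hp⟩ ⟨q, hq, hq'⟩
      have h1 : npi * cay p.2 = cay q.2 := congrArg Prod.snd (f.injective (hp.trans hq'.symm))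
      rw [show q.2 = 0 from hq.2] at h1
      exact cay_ne _ ((npi_npi _).symm.trans ((congrArg _ h1).trans c0))
    · intro h
      obtain ⟨s, hs⟩ := exists_cay (θ := npi * θ) fun e => h ⟨(x, 0), ⟨trivial, rfl⟩,
        congrArg f (Prod.ext rfl (mul_left_cancel (c0.trans e.symm)))⟩
      exact ⟨(x, s), congrArg f (Prod.ext rfl ((congrArg _ hs).trans (npi_npi _)))⟩
  · rw [IsOE.span_target, range_comp, ((EquivLike.surjective α.symm).prodMap surjective_id).range_eq,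
      image_univ, B'.rg]
    ext y
    refine not_congr ⟨fun h => ?_, ?_⟩
    · have h1 : Φ y = cay 0 := mul_left_cancel (h.trans c0.symm)
      obtain ⟨p, rfl⟩ := B.rg.ge fun e => cay_ne _ (h1.symm.trans e)
      exact ⟨p, ⟨trivial, cay_inj ((B.ang p).symm.trans h1)⟩, rfl⟩
    · rintro ⟨p, hp, rfl⟩
      rw [B.ang, show p.2 = 0 from hp.2, c0]
  · show j0.span j1 _ = _
    rw [e0 p hp.ne, IsOE.span_apply, lo _ _ (neg_pos.2 (inv_lt_zero.2 hp)), ee]
  · show j0.span j1 _ = _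
    rw [e0 p hp.ne', IsOE.span_apply, hi _ _ (neg_lt_zero.2 (inv_pos.2 hp)), ee]
    rfl
  · obtain ⟨s, hs⟩ := exists_cay (θ := npi * θ) fun e => hθ (npi_mul_eq.1 e)
    have h1 : f (x, θ) = (f ∘ Prod.map id ((npi * ·) ∘ cay)) (x, s) :=
      congrArg f (Prod.ext rfl ((congrArg _ hs).trans (npi_npi _)).symm)
    show Φ (j0.span j1 _) = _
    rw [h1, IsOE.span_apply]
    exact mul_left_cancel ((B'.ang _).trans hs)

end Crest.Agent.X212.Box46
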