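import Crest.Agent.X212.Box46.Trk

/-!
# X212/Box46/Lev (helper46): regular levels are manifolds; product structure from a complete field
-/

set_option autoImplicit false
set_option linter.unusedSectionVars false
set_option linter.style.haveILetI false

open Set Filter Topology Function
open scoped ContDiff Manifold
open Crest.Agent.X212.Dr59 Crest.Agent.X212.Cyl58 Crest.Agent.X212.Flo26
open Crest.Agent.X212.Sep15 (EE IR CM Box)

noncomputable section

namespace Crest.Agent.X212.Box46

variable {E : Type} [NormedAddCommGroup E] [NormedSpace ℝ E] [FiniteDimensional ℝ E]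
  {H : Type*} [TopologicalSpace H] {I : ModelWithCorners ℝ E H} [I.Boundaryless]
  {N : Type} [TopologicalSpace N] [ChartedSpace H N] [IsManifold I ∞ N] {n : ℕ}

/-- charts adapted to the zero level of `h` -/
structure LD (I : ModelWithCorners ℝ E H) (n : ℕ) (h : N → ℝ) where
  k : {y // h y = 0} → PartialDiffeomorph I (IR n) N (EE n × ℝ) ∞
  mem : ∀ x, x.1 ∈ (k x).source
  snd : ∀ x, ∀ y ∈ (k x).source, (k x y).2 = h y

theorem exists_ld (hn : Module.finrank ℝ E = n + 1) {h : N → ℝ} (hh : ContMDiff I 𝓘(ℝ, ℝ) ∞ h)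
    (h1 : ∀ y, h y = 0 → ∃ u, mf I 𝓘(ℝ, ℝ) h y u = 1) : Nonempty (LD I n h) := by
  have key : ∀ x : {y // h y = 0}, ∃ k : PartialDiffeomorph I (IR n) N (EE n × ℝ) ∞,
      x.1 ∈ k.source ∧ ∀ y ∈ k.source, (k y).2 = h y := by
    rintro ⟨x, hx⟩
    obtain ⟨u, hu⟩ := h1 x hx
    set l : E →ₗ[ℝ] ℝ := (mf I 𝓘(ℝ, ℝ) h x : E →ₗ[ℝ] ℝ) with hl
    have lu : l u = 1 := hu
    have hk : Module.finrank ℝ (LinearMap.ker l) = Module.finrank ℝ (EE n) := by
      have h2 := Module.Dual.finrank_ker_add_one_of_ne_zero (f := l) fun h0 => by simp [h0] at lu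
      simp only [finrank_euclideanSpace, Fintype.card_fin]
      omega
    let L := LinearEquiv.ofFinrankEq _ _ hk
    let A : E →ₗ[ℝ] EE n := L.toLinearMap ∘ₗ (LinearMap.id - l.smulRight u).codRestrict
      (LinearMap.ker l) fun w => by simp [lu]
    let A' := LinearMap.toContinuousLinearMap A
    have s1 : ContMDiffOn I (𝓡 n) ∞ (fun y => A' (extChartAt I x y)) (chartAt H x).source :=
      A'.contMDiff.comp_contMDiffOn contMDiffOn_extChartAt
    have d1 : HasMFDerivAt I (𝓡 n) (fun y => A' (extChartAt I x y)) x A' := by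
      have := (A'.hasMFDerivAt (x := extChartAt I x x)).comp x
        (mdifferentiableAt_extChartAt (I := I) (mem_chart_source H x)).hasMFDerivAt
      rw [mfderiv_extChartAt_self] at this
      exact this
    have ld : IsLocalDiffeomorphAt I (IR n) ∞ (fun y => (A' (extChartAt I x y), h y)) x := by
      refine Glue52.ld_of_injective_mfderiv (by simp [hn]) (chartAt H x).open_source
        (mem_chart_source H x) (s1.prodMk hh.contMDiffOn) ?_
      rw [(d1.prodMk ((hh x).mdifferentiableAt (by simp)).hasMFDerivAt).mfderiv]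
      refine (injective_iff_map_eq_zero _).2 fun w hw => ?_
      have h2 : A w = 0 := congrArg Prod.fst hw
      have h3 : l w = 0 := congrArg Prod.snd hw
      have h4 := congrArg Subtype.val (L.map_eq_zero_iff.1 h2)
      exact (by simpa [h3] using h4 : @Eq E w 0)
    obtain ⟨k, h2, h3⟩ := ld
    exact ⟨k, h2, fun y hy => by rw [← h3 hy]⟩
  choose k h2 h3 using key
  exact ⟨⟨k, h2, h3⟩⟩

namespace LD

variable {h : N → ℝ} (D : LD I n h)

/-- the level -/
def M (_ : LD I n h) : Type := {y // h y = 0}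

instance : TopologicalSpace D.M := inferInstanceAs (TopologicalSpace {y // h y = 0})

/-- the inclusion -/
def ι (x : D.M) : N := x.1

theorem emb : IsEmbedding D.ι := IsEmbedding.subtypeVal

theorem zero (x : D.M) {u : EE n} (hu : (u, (0 : ℝ)) ∈ (D.k x).target) :
    h ((D.k x).symm (u, 0)) = 0 :=
  (D.snd x _ ((D.k x).map_target hu)).symm.trans (congrArg Prod.snd ((D.k x).right_inv hu))

theorem eta (x y : D.M) (hy : D.ι y ∈ (D.k x).source) : ((D.k x (D.ι y)).1, (0 : ℝ)) = D.k x (D.ι y) :=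
  Prod.ext rfl ((D.snd x _ hy).trans y.2).symm

open Classical in
/-- the chart of the level -/
def ch (x : D.M) : OpenPartialHomeomorph D.M (EE n) where
  toFun y := (D.k x (D.ι y)).1
  invFun u := if hu : (u, (0 : ℝ)) ∈ (D.k x).target then ⟨_, D.zero x hu⟩ else x
  source := D.ι ⁻¹' (D.k x).source
  target := (fun u => (u, (0 : ℝ))) ⁻¹' (D.k x).target
  map_source' y hy := by rw [mem_preimage, D.eta x y hy]; exact (D.k x).map_source hy
  map_target' u hu := by
    rw [mem_preimage, dif_pos (mem_preimage.1 hu)]; exact (D.k x).map_target hu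
  left_inv' y hy := by
    have h1 : ((D.k x (D.ι y)).1, (0 : ℝ)) ∈ (D.k x).target := by
      rw [D.eta x y hy]; exact (D.k x).map_source hy
    rw [dif_pos h1]
    exact Subtype.ext ((congrArg (D.k x).symm (D.eta x y hy)).trans ((D.k x).left_inv hy))
  right_inv' u hu := by
    rw [dif_pos (mem_preimage.1 hu)]; exact congrArg Prod.fst ((D.k x).right_inv hu)
  open_source := (D.k x).open_source.preimage D.emb.continuous
  open_target := (D.k x).open_target.preimage (by fun_prop)
  continuousOn_toFun := continuous_fst.comp_continuousOn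
    ((D.k x).contMDiffOn_toFun.continuousOn.comp D.emb.continuous.continuousOn fun _ hy => hy)
  continuousOn_invFun := D.emb.isInducing.continuousOn_iff.2
    (((D.k x).contMDiffOn_invFun.continuousOn.comp (f := fun u => (u, (0 : ℝ))) (by fun_prop)
      fun _ hu => hu).congr fun u hu => congrArg D.ι (dif_pos (mem_preimage.1 hu)))

theorem ι_symm (x : D.M) {u : EE n} (hu : u ∈ (D.ch x).target) :
    D.ι ((D.ch x).symm u) = (D.k x).symm (u, 0) := congrArg D.ι (dif_pos (mem_preimage.1 hu))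

instance : ChartedSpace (EE n) D.M where
  atlas := range D.ch
  chartAt := D.ch
  mem_chart_source x := D.mem x
  chart_mem_atlas x := mem_range_self x

instance : IsManifold (𝓡 n) ∞ D.M := isManifold_of_contDiffOn _ _ _ (by
  rintro _ _ ⟨x, rfl⟩ ⟨y, rfl⟩
  simp only [modelWithCornersSelf_coe, modelWithCornersSelf_coe_symm, preimage_id, range_id,
    inter_univ, id_comp, comp_id]
  have h1 : ContMDiffOn (𝓡 n) I ∞ (fun u => (D.k x).symm (u, (0 : ℝ))) (D.ch x).target :=
    (D.k x).contMDiffOn_invFun.comp (contMDiff_id.prodMk contMDiff_const).contMDiffOn fun _ hu => hu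
  refine contMDiffOn_iff_contDiffOn.1 ((contMDiff_fst.comp_contMDiffOn
    ((D.k y).contMDiffOn_toFun.comp (h1.mono inter_subset_left) fun u hu => ?_)).congr fun u hu => ?_)
  · rw [mem_preimage, ← D.ι_symm x hu.1]; exact hu.2
  · exact congrArg (fun z => (D.k y z).1) (D.ι_symm x hu.1))

theorem sm_ι : ContMDiff (𝓡 n) I ∞ D.ι := fun x => by
  have hx : (D.ch x).source ∈ 𝓝 x := (D.ch x).open_source.mem_nhds (D.mem x)
  have h1 : ContMDiffAt (𝓡 n) (𝓡 n) ∞ (D.ch x) x :=
    (contMDiffOn_chart (I := 𝓡 n) (x := x)).contMDiffAt hx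
  refine (((D.k x).contMDiffOn_invFun.contMDiffAt ((D.k x).open_target.mem_nhds
    ((D.ch x).map_source (D.mem x)))).comp x (h1.prodMk contMDiffAt_const)).congr_of_eventuallyEq ?_
  filter_upwards [hx] with y hy
  exact ((congrArg (D.k x).symm (D.eta x y hy)).trans ((D.k x).left_inv hy)).symm

theorem sm_to {E' H' P : Type*} [NormedAddCommGroup E'] [NormedSpace ℝ E'] [TopologicalSpace H']
    {K : ModelWithCorners ℝ E' H'} [TopologicalSpace P] [ChartedSpace H' P] {f : P → D.M} {p : P}
    (hf : ContMDiffAt K I ∞ (D.ι ∘ f) p) : ContMDiffAt K (𝓡 n) ∞ f p := by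
  have c : ContinuousAt f p := D.emb.isInducing.continuousAt_iff.2 hf.continuousAt
  have h1 : ContMDiffAt (𝓡 n) (𝓡 n) ∞ (D.ch (f p)).symm (D.ch (f p) (f p)) :=
    (contMDiffOn_chart_symm (I := 𝓡 n) (x := f p)).contMDiffAt
      ((D.ch (f p)).open_target.mem_nhds ((D.ch (f p)).map_source (D.mem _)))
  have h2 := (((D.k (f p)).contMDiffOn_toFun.contMDiffAt ((D.k (f p)).open_source.mem_nhds
    (D.mem _))).comp p hf).fst
  refine (h1.comp p h2).congr_of_eventuallyEq ?_
  filter_upwards [c.preimage_mem_nhds ((D.ch (f p)).open_source.mem_nhds (D.mem _))] with q hq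
  exact ((D.ch (f p)).left_inv hq).symm

/-- a compact level as a closed manifold -/
def cm [T2Space N] (hc : IsCompact {y | h y = 0}) : CM n :=
  haveI : T2Space D.M := D.emb.t2Space
  haveI : CompactSpace D.M := isCompact_iff_compactSpace.1 hc
  ⟨D.M⟩

end LD

/-- **product structure** from a field `w` with `dh (w) = 1` and a proper function `h` -/
theorem exists_prod [T2Space N] (hn : Module.finrank ℝ E = n + 1) {h : N → ℝ}
    (hh : ContMDiff I 𝓘(ℝ, ℝ) ∞ h) {w : (y : N) → TangentSpace I y} (hw : SmV I w)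
    (h1 : ∀ y, mf I 𝓘(ℝ, ℝ) h y (w y) = 1) (hp : ∀ a b, IsCompact (h ⁻¹' Icc a b)) :
    ∃ (R : CM n) (b : (R × ℝ) ≃ₘ^∞⟮IR n, I⟯ N), (∀ p, h (b p) = p.2) ∧ Cpl w ∧
      ∀ x s, b (x, s) = fl w s (b (x, 0)) := by
  haveI : CompleteSpace E := FiniteDimensional.complete ℝ E
  obtain ⟨D⟩ := exists_ld hn hh fun y _ => ⟨_, h1 y⟩
  have h2 : ∀ t y, (t, y) ∈ dom w → h (fl w t y) = h y + t := fun t y hd => by
    simpa using comp_fl_eq hw hd (f := h) (c := 1) fun s _ =>
      ⟨(hh _).mdifferentiableAt (by simp), h1 _⟩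
  have hc : Cpl w := fun p => mem_dom_of_compact hw (hp (h p.2 - |p.1|) (h p.2 + |p.1|))
    fun s hs hd => by
      have := abs_le.1 ((abs_sub_left_of_mem_uIcc hs).trans_eq (congrArg _ (sub_zero _)))
      rw [mem_preimage, h2 _ _ hd]
      constructor <;> linarith [this.1, this.2]
  have h3 : ∀ y, h (fl w (-h y) y) = 0 := fun y => by rw [h2 _ _ (hc _), add_neg_cancel]
  refine ⟨D.cm (by simpa [preimage] using hp 0 0), Glue52.diffeoOf (fun p => fl w p.2 (D.ι p.1))
    (fun y => (⟨_, h3 y⟩, h y)) ((hc.contMDiff hw).comp (contMDiff_snd.prodMk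
      (D.sm_ι.comp contMDiff_fst))) (ContMDiff.prodMk (fun y => D.sm_to
        ((hc.contMDiff hw).comp (hh.neg.prodMk contMDiff_id) y)) hh) (fun p => ?_) fun y => ?_,
    fun p => ?_, hc, fun x s => ?_⟩
  · have h4 : h (fl w p.2 (D.ι p.1)) = p.2 := by
      rw [h2 _ _ (hc _), show h (D.ι p.1) = 0 from p.1.2, zero_add]
    refine Prod.ext (Subtype.ext ?_) h4
    show fl w (-h (fl w p.2 (D.ι p.1))) (fl w p.2 (D.ι p.1)) = D.ι p.1
    rw [h4]; exact (neg_mem_dom hw (hc _)).2
  · show fl w (h y) (fl w (-h y) y) = y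
    rw [← hc.add hw, add_neg_cancel, fl_zero hw]
  · show h (fl w p.2 (D.ι p.1)) = p.2
    rw [h2 _ _ (hc _), show h (D.ι p.1) = 0 from p.1.2, zero_add]
  · show fl w s (D.ι x) = fl w s (fl w 0 (D.ι x))
    rw [fl_zero hw]

end Crest.Agent.X212.Box46
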