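import Crest.Agent.X212.Hel40.Defs

/-!
# X212/Box46/Trk (helper46): curves tangent to a field, sheets of a column
-/

set_option autoImplicit false
set_option linter.unusedSectionVars false
set_option linter.style.haveILetI false

open Set Filter Topology Function
open scoped ContDiff Manifold
open Crest.Agent.X212.Dr59 Crest.Agent.X212.Cyl58 Crest.Agent.X212.Flo26
open Crest.Agent.X212.Sep15 (EE IR CM Box)

noncomputable section

namespace Crest.Agent.X212.Box46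

open Hel40

section gen

variable {E : Type} [NormedAddCommGroup E] [NormedSpace ℝ E] [CompleteSpace E]
  {H : Type*} [TopologicalSpace H] {I : ModelWithCorners ℝ E H} [I.Boundaryless]
  {M : Type*} [TopologicalSpace M] [ChartedSpace H M] [IsManifold I ∞ M] [T2Space M]
  {v : (x : M) → TangentSpace I x}

/-- a curve with zero velocity is constant -/
theorem const_of_zero {c : ℝ → M} {U : Set ℝ} (hU : IsOpen U) {s t : ℝ} (hs : uIcc s t ⊆ U)
    (h : ∀ r ∈ U, HasMFDerivAt 𝓘(ℝ, ℝ) I c r 0) : c s = c t := by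
  have h1 := (fl_of_curve (SmV.zero (I := I)) (γ := c ∘ (· + s)) (T := t - s) fun r hr => by
    have h2 : IsMIntegralCurveAt c (fun x : M => (0 : TangentSpace I x)) (r + s) := by
      have h3 : r + s ∈ uIcc s t := by
        rcases mem_uIcc.1 hr with k | k
        · exact mem_uIcc.2 (Or.inl ⟨by linarith [k.1], by linarith [k.2]⟩)
        · exact mem_uIcc.2 (Or.inr ⟨by linarith [k.1], by linarith [k.2]⟩)
      filter_upwards [hU.mem_nhds (hs h3)] with u hu
      exact (h u hu).congr_mfderiv (ContinuousLinearMap.ext_ring (smul_zero (1 : ℝ)).symm)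
    have h4 := h2.comp_add s
    rwa [add_sub_cancel_right] at h4).2
  rw [(fl_of_zero (SmV.zero (I := I)) rfl _).2] at h1
  simpa using h1

set_option backward.isDefEq.respectTransparency false in
/-- a curve with velocity `τ' v` is a reparametrised orbit -/
theorem fl_track (hv : SmV I v) (hc : Cpl v) {γ : ℝ → M} {τ f : ℝ → ℝ} {U : Set ℝ} (hU : IsOpen U)
    (hτ : ∀ r ∈ U, HasDerivAt τ (f r) r)
    (hγ : ∀ r ∈ U, HasMFDerivAt 𝓘(ℝ, ℝ) I γ r ((1 : ℝ →L[ℝ] ℝ).smulRight (f r • v (γ r))))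
    {s t : ℝ} (hs : uIcc s t ⊆ U) : fl v (τ t - τ s) (γ s) = γ t := by
  have h1 : fl v (-τ s) (γ s) = fl v (-τ t) (γ t) := by
    refine const_of_zero (I := I) (c := fun r => fl v (-τ r) (γ r)) hU hs fun r hr => ?_
    have h2 := ((hc.contMDiff hv) (-τ r, γ r)).mdifferentiableAt (by simp)
    have h3 := ((hτ r hr).neg.hasFDerivAt.hasMFDerivAt).prodMk (hγ r hr)
    refine (h2.hasMFDerivAt.comp r h3).congr_mfderiv ?_
    refine ContinuousLinearMap.ext_ring ?_
    have h4 := mfderiv_prod_eq_add_apply h2 (v := ((-f r, f r • v (γ r)) : ℝ × E))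
    have h5 := (hasMFDerivAt_fl hv (hc (-τ r, γ r))).mfderiv
    have h6 := mfderiv_fl hv (hc (-τ r, γ r))
    simp only at h4 h5 h6
    rw [h5] at h4
    erw [map_smul, h6] at h4
    have h7 : (((1 : ℝ) • -f r, (1 : ℝ) • f r • v (γ r)) : ℝ × E) = (-f r, f r • v (γ r)) := by simp
    refine (congrArg (mfderiv (𝓘(ℝ, ℝ).prod I) I (fun p : ℝ × M => fl v p.1 p.2) (-τ r, γ r)) h7).trans
      (h4.trans ?_)
    show (-f r) • (v (fl v (-τ r) (γ r)) : E) + f r • (v (fl v (-τ r) (γ r)) : E) = 0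
    simp
  rw [sub_eq_add_neg, hc.add hv, h1, ← hc.add hv, add_neg_cancel, fl_zero hv]

/-- the speed of a smooth curve tangent to a field is continuous -/
theorem cont_speed (hv : SmV I v) {γ : ℝ → M} {f : ℝ → ℝ} {U : Set ℝ} (hU : IsOpen U)
    (hγ : ContMDiffOn 𝓘(ℝ, ℝ) I ∞ γ U) (h0 : ∀ r ∈ U, v (γ r) ≠ 0) (hp : ∀ r ∈ U, 0 < f r)
    (hf : ∀ r ∈ U, (mfderiv 𝓘(ℝ, ℝ) I γ r (1 : ℝ) : E) = f r • (v (γ r) : E)) : ContinuousOn f U := by
  have h1 := hγ.continuousOn_tangentMapWithin (by simp) hU.uniqueMDiffOn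
  have h2 : Continuous fun r : ℝ => (⟨r, (1 : ℝ)⟩ : TangentBundle 𝓘(ℝ, ℝ) ℝ) :=
    (smV_model.2 (contDiff_const (c := (1 : ℝ)))).continuous
  have h3 : ContinuousOn (fun r : ℝ => (⟨γ r, f r • v (γ r)⟩ : TangentBundle I M)) U :=
    (h1.comp h2.continuousOn fun r hr => hr).congr fun r hr => by
      simp only [comp, tangentMapWithin]
      rw [mfderivWithin_of_isOpen hU hr]
      exact congrArg _ (hf r hr).symm
  have h4 : ContinuousOn (fun r : ℝ => (⟨γ r, v (γ r)⟩ : TangentBundle I M)) U :=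
    hv.continuous.comp_continuousOn hγ.continuousOn
  intro t ht
  set e := trivializationAt E (TangentSpace I) (γ t)
  have hb : γ t ∈ e.baseSet := FiberBundle.mem_baseSet_trivializationAt' _
  have hn := hU.mem_nhds ht
  have c1 := ((e.continuousOn.continuousAt (e.open_source.mem_nhds (e.mem_source.2 hb))).comp
    (f := fun r : ℝ => (⟨γ r, f r • v (γ r)⟩ : TangentBundle I M)) (h3.continuousAt hn)).snd
  have c2 := ((e.continuousOn.continuousAt (e.open_source.mem_nhds (e.mem_source.2 hb))).comp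
    (f := fun r : ℝ => (⟨γ r, v (γ r)⟩ : TangentBundle I M)) (h4.continuousAt hn)).snd
  have ne : ∀ r ∈ U, γ r ∈ e.baseSet → (e ⟨γ r, v (γ r)⟩).2 ≠ 0 := fun r hr hb h =>
    h0 r hr ((e.continuousLinearEquivAt ℝ _ hb).map_eq_zero_iff.1 h)
  refine ((c1.norm.div c2.norm (norm_ne_zero_iff.2 (ne t ht hb))).congr ?_).continuousWithinAt
  filter_upwards [hn, (hγ.continuousOn.continuousAt hn).preimage_mem_nhds
    (e.open_baseSet.mem_nhds hb)] with r hr hb'
  have : (e ⟨γ r, f r • v (γ r)⟩).2 = f r • (e ⟨γ r, v (γ r)⟩).2 :=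
    (e.continuousLinearEquivAt ℝ _ hb').map_smul _ _
  simp only [comp, Pi.div_apply]
  rw [this, norm_smul, mul_div_cancel_right₀ _ (norm_ne_zero_iff.2 (ne r hr hb')),
    Real.norm_of_nonneg (hp r hr).le]

end gen

theorem trk : TrkStmt := by
  intro Y v γ a b hv h
  rcases (Ioo a b).eq_empty_or_nonempty with e | ⟨c, hc⟩
  · exact ⟨id, continuousOn_id, strictMonoOn_id, fun s hs => by simp [e] at hs⟩
  choose! h1 h2 f hp hf using h
  have h3 : ContinuousOn f (Ioo a b) :=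
    cont_speed hv isOpen_Ioo (fun t ht => (h1 t ht).contMDiffWithinAt) h2 hp hf
  have h4 : ∀ t ∈ Ioo a b, HasDerivAt (fun u => ∫ x in c..u, f x) (f t) t := fun t ht =>
    intervalIntegral.integral_hasDerivAt_right
      ((h3.mono (ordConnected_Ioo.uIcc_subset hc ht)).intervalIntegrable)
      (h3.stronglyMeasurableAtFilter isOpen_Ioo t ht) (h3.continuousAt (isOpen_Ioo.mem_nhds ht))
  have h5 : ContinuousOn (fun u => ∫ x in c..u, f x) (Ioo a b) := fun t ht =>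
    (h4 t ht).continuousAt.continuousWithinAt
  refine ⟨_, h5, strictMonoOn_of_deriv_pos (convex_Ioo a b) h5 fun t ht => ?_, fun s hs t ht =>
    fl_track hv (complete_of_compactSpace hv) isOpen_Ioo h4 (fun r hr => ?_)
      (ordConnected_Ioo.uIcc_subset hs ht)⟩
  · rw [interior_Ioo] at ht
    rw [(h4 t ht).deriv]; exact hp t ht
  · refine ((h1 r hr).mdifferentiableAt (by simp)).hasMFDerivAt.congr_mfderiv ?_
    refine ContinuousLinearMap.ext_ring ?_
    exact (hf r hr).trans (one_smul ℝ _).symm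

/-! ### the angle `cay` -/

theorem ang_mem (s : ℝ) : Real.pi + 2 * Real.arctan s ∈ Ioo 0 (2 * Real.pi) :=
  ⟨by linarith [Real.neg_pi_div_two_lt_arctan s], by linarith [Real.arctan_lt_pi_div_two s]⟩

theorem cay_inj : Injective cay := fun s t h => by
  have := Circle.exp_injOn_Ico (a := 0) (b := 2 * Real.pi) (by simp)
    (Ioo_subset_Ico_self (ang_mem s)) (Ioo_subset_Ico_self (ang_mem t)) h
  exact Real.arctan_injective (by linarith)

theorem cay_ne (s : ℝ) : cay s ≠ 1 := fun h =>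
  (ang_mem s).1.ne' (Circle.exp_injOn_Ico (a := 0) (b := 2 * Real.pi) (by simp)
    (Ioo_subset_Ico_self (ang_mem s)) ⟨le_rfl, Real.two_pi_pos⟩ (h.trans Circle.exp_zero.symm))

theorem exp_eq_cay (n : ℤ) (s : ℝ) :
    Circle.exp ((2 * n + 1) * Real.pi + 2 * Real.arctan s) = cay s :=
  Circle.exp_eq_exp.2 ⟨n, by ring⟩

theorem ld_inj {E E' H H' M N : Type*} [NormedAddCommGroup E] [NormedSpace ℝ E]
    [FiniteDimensional ℝ E] [NormedAddCommGroup E'] [NormedSpace ℝ E'] [FiniteDimensional ℝ E']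
    [TopologicalSpace H] [TopologicalSpace H'] {I : ModelWithCorners ℝ E H}
    {J : ModelWithCorners ℝ E' H'} [TopologicalSpace M] [ChartedSpace H M] [TopologicalSpace N]
    [ChartedSpace H' N] {f : N → M} {y : N} (h : IsLocalDiffeomorphAt J I ∞ f y) :
    Injective (mf J I f y) := (h.mfderivToContinuousLinearEquiv (by simp)).injective

variable {Y : CM 3} {R R' : CM 2} {v : Vf Y}

/-- the field as a function with values in the model space -/
def vv (v : Vf Y) (y : Y) : EE 3 := v y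

theorem vert_vv {b : R × ℝ → Y} (hv : Vert v b) (p : R × ℝ) :
    ∃ f > (0 : ℝ), mf (IR 2) (𝓡 3) b p (0, 1) = f • vv v (b p) := hv p

/-- a curve tangent to `v` inside a vertical box has a constant foot -/
theorem foot {b : R × ℝ → Y} (hb : Box b) (hv : Vert v b) {γ : ℝ → Y} {S : Set ℝ} (hS : IsOpen S)
    (hγ : ∀ s ∈ S, ContMDiffAt 𝓘(ℝ, ℝ) (𝓡 3) ∞ γ s ∧ γ s ∈ range b ∧
      ∃ k : ℝ, mf 𝓘(ℝ, ℝ) (𝓡 3) γ s 1 = k • vv v (γ s))
    {s t : ℝ} (h : uIcc s t ⊆ S) {p q : R × ℝ} (hp : γ s = b p) (hq : γ t = b q) : p.1 = q.1 := by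
  haveI : Nonempty (R × ℝ) := ⟨p⟩
  let c : ℝ → R × ℝ := fun r => invFun b (γ r)
  have h1 : ∀ r ∈ S, b (c r) = γ r := fun r hr => invFun_eq (hγ r hr).2.1
  have h2 : (c s).1 = (c t).1 := by
    refine const_of_zero (I := 𝓡 2) (c := fun r => (c r).1) hS h fun r hr => ?_
    have e : b ∘ c =ᶠ[𝓝 r] γ := by filter_upwards [hS.mem_nhds hr] with u hu using h1 u hu
    have k1 := (hb.contMDiffAt_left ((hγ r hr).1.congr_of_eventuallyEq e)).mdifferentiableAt (by simp)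
    obtain ⟨k, hk⟩ := (hγ r hr).2.2
    obtain ⟨f, hf, hf'⟩ := vert_vv hv (c r)
    have k2 : mf 𝓘(ℝ, ℝ) (IR 2) c r 1 = (k / f) • ((0, 1) : EE 2 × ℝ) := by
      refine ld_inj (hb.loc (c r)) ?_
      rw [map_smul, hf', smul_smul, div_mul_cancel₀ _ hf.ne', h1 r hr, ← hk, ← mf_congr e,
        mf_comp ((hb.contMDiff _).mdifferentiableAt (by simp)) k1]
      rfl
    refine ((hasMFDerivAt_fst (c r)).comp r k1.hasMFDerivAt).congr_mfderiv
      (ContinuousLinearMap.ext_ring ?_)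
    show (mf 𝓘(ℝ, ℝ) (IR 2) c r 1).1 = 0
    rw [k2]; simp
  rwa [hb.inj ((h1 s (h left_mem_uIcc)).trans hp), hb.inj ((h1 t (h right_mem_uIcc)).trans hq)] at h2

/-- velocity of a vertical line with a change of parameter -/
theorem mf_line {F H Z : Type*} [NormedAddCommGroup F] [NormedSpace ℝ F] [FiniteDimensional ℝ F]
    [TopologicalSpace H] {J : ModelWithCorners ℝ F H} [TopologicalSpace Z] [ChartedSpace H Z]
    {E : Z × ℝ → Y} {z : Z} {θ : ℝ → ℝ} {s θ' : ℝ} (hθ : HasDerivAt θ θ' s)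
    (hE : MDifferentiableAt (J.prod 𝓘(ℝ, ℝ)) (𝓡 3) E (z, θ s)) :
    mf 𝓘(ℝ, ℝ) (𝓡 3) (fun r => E (z, θ r)) s 1 =
      θ' • mf (J.prod 𝓘(ℝ, ℝ)) (𝓡 3) E (z, θ s) (0, 1) := by
  have h1 := (hasMFDerivAt_const (I := 𝓘(ℝ, ℝ)) (I' := J) z s).prodMk hθ.hasFDerivAt.hasMFDerivAt
  have h2 : (((0 : F), (1 : ℝ) • θ') : F × ℝ) = θ' • ((0, 1) : F × ℝ) := by simp
  rw [← map_smul, ← h2]
  exact congrArg (fun L : ℝ →L[ℝ] EE 3 => L 1) (hE.hasMFDerivAt.comp s h1).mfderiv

theorem isOpen_Xo (δ : ℝ) : IsOpen (Xo δ) := by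
  have : Xo δ = (⋃ n : ℤ, {z : ℂ | |z.re - n| < δ}) ∪ ⋃ n : ℤ, {z : ℂ | |z.im - n| < δ} := by
    ext z; simp [Xo]
  rw [this]
  exact (isOpen_iUnion fun n => isOpen_lt (by fun_prop) continuous_const).union
    (isOpen_iUnion fun n => isOpen_lt (by fun_prop) continuous_const)

theorem sheet : SheetStmt := by
  intro Y R o v Φ oR b δ a E n _ _ B C hn
  let θ : ℝ → ℝ := fun s => (2 * n + 1) * Real.pi + 2 * Real.arctan s
  have cθ : ContDiff ℝ ∞ θ := contDiff_const.add (contDiff_const.mul Real.contDiff_arctan)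
  have θ0 : |θ 0| < a := by simpa [θ] using hn
  have hr : ∀ z ∈ Xo δ, ∀ s, |θ s| < a → ∃ x, E (z, θ s) = b (x, s) := fun z hz s hs => by
    have h1 : Φ (E (z, θ s)) = cay s := (C.ang (z, θ s) hz hs).trans (exp_eq_cay n s)
    obtain ⟨p, hp⟩ : E (z, θ s) ∈ range b := by
      rw [B.rg]; exact fun h => cay_ne s (h1.symm.trans h)
    have h2 : p.2 = s := cay_inj ((B.ang p).symm.trans (hp ▸ h1))
    exact ⟨p.1, hp.symm.trans (congrArg b (Prod.ext rfl h2))⟩
  obtain ⟨x₀, -⟩ := hr 0 (Or.inl ⟨0, by simpa using C.pos⟩) 0 θ0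
  haveI : Nonempty R := ⟨x₀⟩
  choose! e he using fun z hz => hr z hz 0 θ0
  have sm : ∀ z ∈ Xo δ, ContMDiffAt 𝓘(ℝ, ℂ) (IR 2) ∞ (fun z => (e z, (0 : ℝ))) z ∧
      (b ∘ fun z => (e z, (0 : ℝ))) =ᶠ[𝓝 z] E ∘ fun z => (z, θ 0) := fun z hz => by
    have h1 : (b ∘ fun z => (e z, (0 : ℝ))) =ᶠ[𝓝 z] E ∘ fun z => (z, θ 0) := by
      filter_upwards [(isOpen_Xo δ).mem_nhds hz] with w hw using (he w hw).symm
    exact ⟨B.box.contMDiffAt_left (((C.ld (z, θ 0) hz θ0).contMDiffAt.comp z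
      (contMDiffAt_id.prodMk contMDiffAt_const)).congr_of_eventuallyEq h1), h1⟩
  refine ⟨e, ⟨C.pos, C.lt, fun z hz => Glue52.ld_of_injective_mfderiv (by simp) (isOpen_Xo δ) hz
    (fun w hw => (sm w hw).1.fst.contMDiffWithinAt) ?_, fun z hz w hw => ?_⟩, fun z hz s hs => ?_⟩
  · have d1 := (sm z hz).1.fst.mdifferentiableAt (by simp)
    have d2 := (B.box.contMDiff (e z, 0)).mdifferentiableAt (by simp)
    have d3 := (C.ld (z, θ 0) hz θ0).contMDiffAt.mdifferentiableAt (by simp)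
    have h1 := (d2.hasMFDerivAt.comp z (d1.hasMFDerivAt.prodMk
      (hasMFDerivAt_const (I := 𝓘(ℝ, ℂ)) (I' := 𝓘(ℝ, ℝ)) (0 : ℝ) z))).mfderiv
    have h2 := (d3.hasMFDerivAt.comp z ((hasMFDerivAt_id (I := 𝓘(ℝ, ℂ)) z).prodMk
      (hasMFDerivAt_const (I := 𝓘(ℝ, ℂ)) (I' := 𝓘(ℝ, ℝ)) (θ 0) z))).mfderiv
    have h3 := h1.symm.trans ((mf_congr (sm z hz).2).trans h2)
    intro u u' h
    have h4 : ∀ u : ℂ, mf (IR 2) (𝓡 3) b (e z, 0) (mf 𝓘(ℝ, ℂ) (𝓡 2) e z u, 0) =
        mf ICR (𝓡 3) E (z, θ 0) (u, 0) := fun u => congrArg (fun L : ℂ →L[ℝ] EE 3 => L u) h3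
    have h5 : mf 𝓘(ℝ, ℂ) (𝓡 2) e z u = mf 𝓘(ℝ, ℂ) (𝓡 2) e z u' := h
    exact congrArg Prod.fst (ld_inj (C.ld (z, θ 0) hz θ0)
      ((h4 u).symm.trans (by rw [h5]; exact h4 u')))
  · refine ⟨fun h => ((C.eq (z, θ 0) (w, θ 0) hz θ0 hw θ0).1 ?_).2, fun h => ?_⟩
    · rw [he z hz, he w hw, h]
    · have := (C.eq (z, θ 0) (w, θ 0) hz θ0 hw θ0).2 ⟨rfl, h⟩
      rw [he z hz, he w hw] at this
      exact congrArg Prod.fst (B.box.inj this)
  · obtain ⟨x, hx⟩ := hr z hz s hs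
    have h1 : e z = x := by
      refine foot B.box B.vert (γ := fun r => E (z, θ r)) (S := {r | |θ r| < a})
        (isOpen_lt cθ.continuous.abs continuous_const) (fun r hr' => ?_) (fun r hr' => ?_)
        (he z hz) hx
      · have h2 := (C.ld (z, θ r) hz hr').contMDiffAt
        obtain ⟨y, hy⟩ := hr z hz r hr'
        obtain ⟨f, -, hf⟩ : ∃ f > (0 : ℝ), mf ICR (𝓡 3) E (z, θ r) (0, 1) = f • vv v (E (z, θ r)) :=
          C.vert (z, θ r) hz hr'
        refine ⟨h2.comp r (contMDiffAt_const.prodMk cθ.contMDiff.contMDiffAt), ⟨_, hy.symm⟩,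
          deriv θ r * f, ?_⟩
        rw [mf_line (cθ.differentiable (by simp) r).hasDerivAt (h2.mdifferentiableAt (by simp)), hf,
          smul_smul]
      · have m : Monotone θ := fun x y h => by
          have := Real.arctan_strictMono.monotone h
          simp only [θ]; linarith
        have := (ordConnected_Ioo (a := -a) (b := a)).uIcc_subset (abs_lt.1 θ0) (abs_lt.1 hs)
          (m.image_uIcc_subset ⟨r, hr', rfl⟩)
        exact abs_lt.2 this
    rw [h1]; exact hx.symm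

end Crest.Agent.X212.Box46
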